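import Vale.Agent.P277.H335.C.Lev

/-!
# P277, (WS): the wedges of a good covering, centred in a flipped surface along which the space is
singular
-/

open scoped Manifold ContDiff ComplexOrder Topology
open Vale.Agent.P272.K Vale.Agent.P285.H281.FD Vale.Agent.P267.H175 Set Metric Filter

noncomputable section

namespace Vale.Agent.P277.H762.S

open Vale.Agent.P277 Vale.Agent.P277.T2 Vale.Agent.P277.H335 Vale.Agent.P277.H615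
open Vale.Agent.P277.H335.RR Vale.Agent.P277.H335.KK Vale.Agent.P277.H335.RC
open Vale.Agent.P277.H335.CC
open Vale.Agent.P277.H884.S (Stp)

section
variable {Y : Type} [TopologicalSpace Y] [ChartedSpace (Cm 4) Y] {X : CSp} {k s : ℕ}
  {L : Fin (k + s) → Bd X.pt} {M : Fin (k + s) → Bd Y} {m : Fin (k + s) → ℕ}

/-- the wedge `φ` is the image of an open subset of `Y`, centred in a `G l` with `a l < 0`, and the
order of `∑ l, a l • G l` is less than the order of the canonical section -/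
def PlW (O : Set Y) (v : Y → X.pt)
    (T : ∀ e, (L e).ι → (((Bd.can 4 Y).pow (m e)).mul (M e)).ι → Y → ℂ) (Q : Fin (k + s) → ℕ)
    (ρ : Fin (k + s) → ℝ) (S : Set X.pt) {r : ℕ} (G : Fin r → Set Y) (a : Fin r → ℝ)
    {H : Fin s → Type} (ι : ∀ i, H i → Y) (φ : Cm 4 → X.pt) (w₁ : Cm 4) : Prop :=
  ∃ (l : Fin r) (W₁ : Set (Cm 4)) (γ : Cm 4 → Y) (ch : Chart 4 Y) (μ : ∀ e, (M e).ι)
    (i : ∀ e, (L e).ι) (x : Fin (k + s) → ℚ) (r₁ b : ℝ), GermV O v T S W₁ w₁ φ γ ch μ i x 0 ∧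
    a l < 0 ∧ IsPar (G l) γ w₁ r₁ ∧ (∀ i : Fin s, x (Fin.natAdd k i) ≤ 0) ∧
    (∀ j, γ w₁ ∉ range (ι j)) ∧ OrdG G a γ w₁ b ∧ b < ∑ e, ρ e / Q e * x e

/-- the output of `stage_W` -/
def StgW (O : Set Y) (v : Y → X.pt)
    (T : ∀ e, (L e).ι → (((Bd.can 4 Y).pow (m e)).mul (M e)).ι → Y → ℂ) (Q : Fin (k + s) → ℕ)
    (ρ : Fin (k + s) → ℝ) (S Nc : Set X.pt) {r : ℕ} (G : Fin r → Set Y) (a : Fin r → ℝ)
    {H : Fin s → Type} (ι : ∀ i, H i → Y) : Prop :=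
  ∃ (V₁ : Set X.pt) (Gc : X.pt → Cm 4) (rr : ℝ) (d nn : ℕ) (lm : X.pt → ℂ) (θ : Cm 4 → ℂ)
    (ζ : Fin nn → X.pt → ℂ) (aa : Fin d → X.pt → ℂ) (b κ : Cm 4 → ℂ) (Nn : ℕ) (sS : Fin d → ℕ)
    (σ : Equiv.Perm (Fin d)) (φ : Fin d → Cm 4 → X.pt) (w₁ : Cm 4) (i₀ : ∀ e, (L e).ι),
    1 ≤ d ∧ V₁ ⊆ Ncᶜ ∧ (∀ e, V₁ ⊆ (L e).U (i₀ e)) ∧
    Stp X S V₁ Gc rr d lm θ ζ aa b κ Nn sS σ φ w₁ ∧ ∀ k', PlW O v T Q ρ S G a ι (φ k') w₁

end

end Vale.Agent.P277.H762.S
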