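import Vale.Agent.P277.Stmts4
import Vale.Agent.P277.H762.L3

/-!
# P277, (WS): open subsets of a surface are not one-dimensional
-/

open scoped Manifold ContDiff Topology
open Vale.Agent.P272.K Vale.Agent.P285.H281.FD Set Filter Metric

noncomputable section

namespace Vale.Agent.P277.H762.S

open Vale.Agent.P277 Vale.Agent.P277.TX

/-- the surface `S` of a good covering has dimension two at all points -/
theorem not_dimLe_good {X : CSp} {S V : Set X.pt} {G : X.pt → Cm 4} {c : Cm 4} {r : ℝ} {d : ℕ}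
    {lam : X.pt → ℂ} {θ : Cm 4 → ℂ} (h : IsGood X S V G c r d lam θ) {x : X.pt} (hxV : x ∈ V)
    (hxS : x ∈ S) {U : Set X.pt} (hU : IsOpen U) (hxU : x ∈ U) : ¬ DimLe X 1 (S ∩ (V ∩ U)) := by
  intro hD
  set F : X.pt → Cm 2 := fun y => ![G y 2, G y 3] with hF
  have hFh : ∀ i, ∀ y ∈ V, X.Hol (fun y => F y i) y := by
    intro i y hy
    fin_cases i
    · exact h.holo y hy 2
    · exact h.holo y hy 3
  have h1 : Cv 1 (F '' (S ∩ (V ∩ U))) := cv_image_of_dimLe hFh (fun y hy => hy.2.1) hD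
  set B : Cm 2 → Cm 4 := fun u => ![0, 0, u 0, u 1] with hB
  have hBc : Continuous B := by
    refine continuous_pi fun i => ?_
    fin_cases i
    · exact continuous_const
    · exact continuous_const
    · exact continuous_apply 0
    · exact continuous_apply 1
  have hO : IsOpen (B ⁻¹' (G '' (V ∩ U))) :=
    (h.openMap (V ∩ U) inter_subset_left (h.isOpen.inter hU)).preimage hBc
  have hx : F x ∈ B ⁻¹' (G '' (V ∩ U)) := by
    refine ⟨x, ⟨hxV, hxU⟩, ?_⟩
    obtain ⟨g0, g1⟩ := (h.memS x hxV).1 hxS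
    funext i
    fin_cases i
    · exact g0
    · exact g1
    · rfl
    · rfl
  have hsub : B ⁻¹' (G '' (V ∩ U)) ⊆ F '' (S ∩ (V ∩ U)) := by
    rintro u ⟨y, hy, hyu⟩
    have e : ∀ i, G y i = B u i := fun i => congrFun hyu i
    refine ⟨y, ⟨(h.memS y hy.1).2 ⟨e 0, e 1⟩, hy⟩, ?_⟩
    funext i
    fin_cases i
    · exact e 2
    · exact e 3
  exact not_cv_nhds (by rw [Module.finrank_fin_fun]; norm_num) (hO.mem_nhds hx) (h1.mono hsub)

end Vale.Agent.P277.H762.S
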