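import Vale.Agent.P277.H762.S.WsDef
import Vale.Agent.P277.H762.S.Dim
import Vale.Agent.P277.H762.S.StageV
import Vale.Agent.P277.H29.W.Sing
import Vale.Agent.P277.H335.W.Num
import Vale.Agent.P277.H615.W.HitW
import Vale.Agent.P277.H615.W.Sig
import Vale.Agent.P277.H29.W.Key
import Vale.Agent.P277.H29.E.ContH
import Vale.Agent.P277.H335.K.RegL

/-!
# P277, (WS): the flipped surfaces along which the space is singular
-/

set_option maxSynthPendingDepth 3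
set_option linter.unusedSectionVars false

open scoped Manifold ContDiff ComplexOrder Topology
open Vale.Agent.P272.K Vale.Agent.P285.H281.FD Vale.Agent.P267.H175 Set Metric Filter

noncomputable section

namespace Vale.Agent.P277.WS

open Vale.Agent.P277 Vale.Agent.P277.T2 Vale.Agent.P277.T3 Vale.Agent.P277.H335
open Vale.Agent.P277.H615 Vale.Agent.P277.H335.RR Vale.Agent.P277.H335.KK
open Vale.Agent.P277.H335.CC
open Vale.Agent.P277.H29.E Vale.Agent.P277.H29.W Vale.Agent.P277.H762.S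
open Vale.Agent.P277.H884.S (Stp)

section
variable {Y : Type} [TopologicalSpace Y] [T2Space Y] [CompactSpace Y]
    [ChartedSpace (Cm 4) Y] [IsManifold 𝓘(ℂ, Cm 4) ω Y]
    {χ : Chart 4 Y → Cm 4 → Matrix (Fin 4) (Fin 4) ℂ} {k s : ℕ}
    {M : Fin (k + s) → Bd Y} {m : Fin (k + s) → ℕ} {ρ : Fin (k + s) → ℝ} {H : Fin s → Type}
    [∀ i, TopologicalSpace (H i)] [∀ i, T2Space (H i)] [∀ i, CompactSpace (H i)]
    [∀ i, ConnectedSpace (H i)] [∀ i, ChartedSpace (Cm 3) (H i)]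
    [∀ i, IsManifold 𝓘(ℂ, Cm 3) ω (H i)] {ι : ∀ i, H i → Y}
    {sg : ∀ i : Fin s, (M (Fin.natAdd k i)).ι → Y → ℂ} {W : CSp} {X Z : ℕ → CSp} {r : ℕ}
    {v₀ : Y → W.pt} {p : W.pt → (X 0).pt} {P : Bd W.pt} {G : Fin r → Set Y}
    {f : ∀ j, (X j).pt → (Z j).pt} {f' : ∀ j, (X (j + 1)).pt → (Z j).pt}
    {A : ∀ j, Set (Z j).pt} {L : ∀ j, Fin (k + s) → Bd (X j).pt} {c : ℕ → Fin (k + s) → ℕ}
    {σ : ∀ j, ∀ i : Fin s, (L j (Fin.natAdd k i)).ι → (X j).pt → ℂ}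
    {n : Fin (k + s) → Fin r → ℤ} {t : ∀ e, (L 0 e).ι →
      ((((Bd.can 4 Y).pow (m e)).mul (M e)).pow (c 0 e)).ι → Y → ℂ}

/-- If `X (j + 1)` is singular along a flipped surface, then a sheet of a good covering gives a `G l`
with small discrepancy. -/
theorem sing_Q (h : IsPG χ M m ρ ι sg v₀ p P G f f' A L c σ n t) {a : Fin r → ℝ}
    (ha : ∀ l, a l = ∑ e, ρ e * n e l / c 0 e) (hb : ∀ i : Fin s, ρ (Fin.natAdd k i) < 1)
    (hklt : ∀ l, -1 < a l) (hd1 : ∀ l l', l ≠ l' → a l < 0 → a l' < 0 → Disjoint (G l) (G l'))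
    (hd2 : ∀ l i, a l < 0 → Disjoint (G l) (range (ι i))) {E : Set Y}
    (hE : E = univ ∨ IsWZ χ (fun y => p (v₀ y)) (L 0) (c 0) ρ E) (j : ℕ)
    (hbad : ¬ DimLe (X (j + 1)) 1 {x | f' j x ∈ Amin (f j) ∧ ¬ IsReg 4 (X (j + 1)) x}) :
    ¬ DimLe (X (j + 1)) 1 {x | f' j x ∈ Amin (f j) ∧
        ∃ l, a l < 0 ∧ G l ⊆ E ∧ ZD (fun y => p (v₀ y)) (hit f f') (G l) ∧
          ∃ u : ℝ, (u = 1 ∨ u = 2 ∧ ¬ IsReg 4 (X (j + 1)) x) ∧
            ∑ i : Fin s, (Str (Cor (⋃ l, G l) (fun y => p (v₀ y)) f f' (j + 1))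
              (range (ι i))).indicator (fun _ => ρ (Fin.natAdd k i)) x < - (u * a l)} := by
  classical
  have hsum : ∑ e : Fin k, ρ (Fin.castAdd s e) * m (Fin.castAdd s e) = 1 := by
    have h1 := h.sum
    rw [Fin.sum_univ_add] at h1
    simpa only [h.m0, Nat.cast_zero, mul_zero, Finset.sum_const_zero, add_zero] using h1
  have hk : 1 ≤ k := by
    rcases Nat.eq_zero_or_pos k with rfl | h1
    · simp at hsum
    · exact h1
  have hn' : ∀ l, 0 ≤ ∑ e, ρ e * n e l / c 0 e ∨ G l ⊆ (univ : Set Y) := fun l =>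
    Or.inr (subset_univ _)
  have hrc : ∀ i, IsClosed (range (ι i)) := fun i =>
    (isCompact_range (h.bd i).sub.cont).isClosed
  obtain ⟨O, v, P', Q', T, hT⟩ := H884.G.exists_twSeqG H884.stL0 (by omega) h.lb h.res h.c1 h.cmp
    h.corr hn' h.flip
  obtain ⟨pp, qq, s', aF, hf, dF, bF, -, -, -, -, -, -, -, -, -⟩ := hT.step j
  have hTw := hT.tw j
  have hch := exists_chainK H884.stL0 (by omega) (h.flip 0).flip.normal h.lb h.res h.cmp hT j
  have hsub := hT.sub_compl j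
  have hdn : ∀ i, range (ι i) ⊆ closure (range (ι i) ∩ O (j + 1)) := by
    intro i
    have hne : Nonempty Y := ⟨ι i (Classical.arbitrary (H i))⟩
    exact (hyp_dense h.res.emb h.res.hyp h.res.closed (isHyp_of_bd (h.lb _) (h.bd i))
      (isPreconnected_range (h.bd i).sub.cont)
      (fun l hl => h.ne i (hl.trans (subset_iUnion G l)))
      (hTw.tw ⟨0, by omega⟩).emb.isOpen (hTw.tw ⟨0, by omega⟩).thin).2.1
  have hS : ∀ i : Fin s, SecRel (L (j + 1) (Fin.natAdd k i))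
      (((Bd.can 4 Y).pow (m (Fin.natAdd k i))).mul (M (Fin.natAdd k i))) (O (j + 1)) (v (j + 1))
      (P' (j + 1) (Fin.natAdd k i)) (Q' (j + 1) (Fin.natAdd k i)) (T (j + 1) (Fin.natAdd k i))
      (fun b y => sg i b.2 y) := by
    intro i
    have h1 := (h.flip (j + 1)).sec i
    refine ⟨fun a x => σ (j + 1) i a x ^ P' (j + 1) (Fin.natAdd k i),
      ⟨fun a x hx ha => hol_pow (h1.holo a x hx ha) _, fun a b x hx ha hb => ?_⟩, ?_⟩
    · show σ (j + 1) i a x ^ P' (j + 1) (Fin.natAdd k i) = (L (j + 1) (Fin.natAdd k i)).g a b x ^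
        P' (j + 1) (Fin.natAdd k i) * σ (j + 1) i b x ^ P' (j + 1) (Fin.natAdd k i)
      rw [h1.change a b x hx ha hb, mul_pow]
    · rintro y hy a ⟨ch, b⟩ ha ⟨hb1, hb2⟩
      rw [mul_comm]
      exact hT.sec (j + 1) i y a ch b hy ha hb1 hb2
  obtain ⟨V₁, Gc, rr, d, nn, lm, θ, ζ, aa, bb, κ, Nn, sS, σs, φ, w₁, i₀, l, W₁, γ, ch, μ, i, x, r₁,
    b₁, lam, nj, hd1', -, hsg, hVL, hst, hgw, hnj, hlam, hle⟩ := stage_V
    (Nc := (∅ : Set (X (j + 1)).pt)) (N := (∅ : Set Y)) (a := a) (Ks := {l | a l < 0})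
    (S := f' j ⁻¹' Amin (f j))
    h.kahler h.nef h.pos hsum
    hf.normal' (hTw.tw ⟨0, by omega⟩).emb (hTw.tw ⟨0, by omega⟩).dim h.lb hTw.tw hTw.lb
    (fun W w₀ γ' i hW hw₀ h0 hγ hcl hi hSN => by
      obtain ⟨w₁, hw₁, hw₁0, W₁, γ₀, ch, cc, q, g1, g2, g3, g4, g5, g6, g7, b₀, g8, -, g9⟩ :=
        hch W w₀ γ' i hW hw₀ h0 hγ hcl hi
      have hal : (fun l => ∑ e, ρ e * n e l / c 0 e) = a := funext fun l => (ha l).symm
      rw [hal] at g8
      exact ⟨w₁, hw₁, hw₁0, W₁, γ₀, ch, cc, q, g1, g2, g3, g4, g5, g6, g7,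
        ⟨b₀, g8, g9 (fun w hw hw0 => (hSN w hw hw0).1)⟩, fun w _ _ => notMem_empty _⟩)
    (fun l hl => Or.inl (not_lt.1 hl)) (fun l _ => (hklt l).le)
    (fun l hl l' hl' hll y hy => disjoint_left.1 (hd1 l l' hll hl hl') hy.1 hy.2)
    (fun l hl i y hy => disjoint_left.1 (hd2 l i hl) hy.1 hy.2)
    h.rho (fun i => Or.inl (hb i).le) h.bd h.disj hdn hS hsub
    (IsAn.preimage (fun x => hf.small'.holMap x) hf.small'.an) isClosed_empty hrc
    (fun h1 => hbad (h1.mono fun x hx => ⟨hx.1, hx.2, notMem_empty _⟩))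
  have hQ0 : ∀ e, (0 : ℝ) < Q' (j + 1) e := fun e => by exact_mod_cast (hTw.tw e).hQ
  obtain ⟨k₀, hk₀⟩ := H335.W.ws_num hd1' (fun k' => (hst.s1 k').1) hnj h.rho
    (y := fun k' e => (x k' e : ℝ) / Q' (j + 1) e)
    (fun k' i => div_nonpos_of_nonpos_of_nonneg (by exact_mod_cast (hgw k').2.2.2.1 i) (hQ0 _).le)
    (fun k' => by
      refine le_trans (le_of_eq ?_) (hgw k').2.2.2.2.2.2.2.2.1
      exact Finset.sum_congr rfl fun e _ => by ring)
    (fun k' => by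
      refine lt_of_lt_of_eq (hgw k').2.2.2.2.2.2.2.2.2 ?_
      exact Finset.sum_congr rfl fun e _ => by ring)
    (lam := lam) (fun e => by
      rw [hlam e]
      exact Finset.sum_congr rfl fun k' _ => by rw [div_div]) hle
  obtain ⟨hgm, hal, hpar, hx0, hnr, -, hlt, hle1, -, -⟩ := hgw k₀
  have hGE : G (l k₀) ⊆ E := by
    rcases hE with rfl | hE
    · exact subset_univ _
    · exact wz_sing h hE hT j ha hst hVL (fun k' => (hgw k').toPlW) hgm hpar (hgw k₀).ordG hlt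
  have hZD := H615.WZ.zd_of_germ h hT hgm hpar
  set U : Set (X (j + 1)).pt := ⋂ i : Fin s, {y | x k₀ (Fin.natAdd k i) = 0 →
    y ∉ Str (Cor (⋃ l, G l) (fun y => p (v₀ y)) f f' (j + 1)) (range (ι i))} with hU
  have hUo : IsOpen U := by
    refine isOpen_iInter_of_finite fun i => ?_
    by_cases hi : x k₀ (Fin.natAdd k i) = 0
    · have h1 : {y | x k₀ (Fin.natAdd k i) = 0 →
          y ∉ Str (Cor (⋃ l, G l) (fun y => p (v₀ y)) f f' (j + 1)) (range (ι i))} =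
          (Str (Cor (⋃ l, G l) (fun y => p (v₀ y)) f f' (j + 1)) (range (ι i)))ᶜ := by
        ext y
        simp [hi]
      rw [h1]
      exact isClosed_closure.isOpen_compl
    · have h1 : {y | x k₀ (Fin.natAdd k i) = 0 →
          y ∉ Str (Cor (⋃ l, G l) (fun y => p (v₀ y)) f f' (j + 1)) (range (ι i))} = univ := by
        ext y
        simp [hi]
      rw [h1]
      exact isOpen_univ
  intro hD
  refine not_dimLe_good hst.good (hst.pui k₀).self_of_nhds.2.1 (hgm.inS w₁ hgm.mem hgm.zero) hUo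
    (mem_iInter.2 fun i hi => H615.WZ.notMem_str h hT hgm hi (hnr i)) (hD.mono ?_)
  rintro y ⟨hyS, hyV, hyU⟩
  refine ⟨hyS, l k₀, hal, hGE, hZD, 2, Or.inr ⟨rfl, hsg y ⟨hyS, hyV⟩⟩, ?_⟩
  have h1 : ∑ i : Fin s, (Str (Cor (⋃ l, G l) (fun y => p (v₀ y)) f f' (j + 1))
      (range (ι i))).indicator (fun _ => ρ (Fin.natAdd k i)) y ≤
      ∑ i : Fin s, (if (x k₀ (Fin.natAdd k i) : ℝ) / Q' (j + 1) (Fin.natAdd k i) < 0
        then ρ (Fin.natAdd k i) else 0) := by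
    refine Finset.sum_le_sum fun i _ => ?_
    by_cases hi : x k₀ (Fin.natAdd k i) = 0
    · rw [indicator_of_notMem (mem_iInter.1 hyU i hi)]
      split_ifs
      · exact (h.rho _).le
      · exact le_rfl
    · have h2 : (x k₀ (Fin.natAdd k i) : ℝ) < 0 := by
        have h3 := lt_of_le_of_ne (hx0 i) hi
        exact_mod_cast h3
      rw [if_pos (div_neg_of_neg_of_pos h2 (hQ0 _))]
      exact indicator_le_self' (fun _ _ => (h.rho _).le) y
  have h2 : ∑ e, ρ e * ((x k₀ e : ℝ) / Q' (j + 1) e) = ∑ e, ρ e / Q' (j + 1) e * x k₀ e :=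
    Finset.sum_congr rfl fun e _ => by ring
  rw [h2] at hk₀
  linarith

end

end Vale.Agent.P277.WS
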