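import Vale.Agent.P277.Stmts37
import Vale.Agent.P277.H762.S.RegW
import Vale.Agent.P277.H884.S.FinReg

/-!
# P277, (KLTV)
-/

set_option maxSynthPendingDepth 3

open scoped Manifold ContDiff Topology
open Vale.Agent.P272.K Vale.Agent.P285.H281.FD Vale.Agent.P267.H175 Set Filter Metric

noncomputable section

namespace Vale.Agent.P277.WS

open Vale.Agent.P277 Vale.Agent.P277.T3 Vale.Agent.P277.H615 Vale.Agent.P277.H371.C Vale.Agent.P277.H29.E Vale.Agent.P277.H884.T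
open Vale.Agent.P277.H615.WZ Vale.Agent.P277.H29.W

/-- (KLTV) -/
theorem stKltV : T3.StKltV := by
  intro Y _ _ _ _ _ χ hχ k s M hM hnef m hm hm0 ρ hρ hsum H _ _ _ _ _ _ ι sg hbd
    hdisj W X Z r v p P G hres hne f f' A L c hc n hn hflip a ha hb hklt hd1 hd2
  have hW := H29.W.stKltW Y χ hχ k s M hM hnef m hm hm0 ρ hρ hsum H ι sg hbd
    hdisj W X Z r v p P G hres hne f f' A L c hc n hn hflip a ha hb hklt hd1 hd2
  refine ⟨hW.1, fun E hE N hN => ?_, hW.2.2⟩
  by_contra hcon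
  push Not at hcon
  -- the points with `u = 1`
  have h1 : ∀ j ≥ N, DimLe (X (j + 1)) 1 {x | f' j x ∈ Amin (f j) ∧
      ∃ l, a l < 0 ∧ G l ⊆ E ∧ ZD (fun y => p (v y)) (hit f f') (G l) ∧
        ∑ i : Fin s, (Str (Cor (⋃ l, G l) (fun y => p (v y)) f f' (j + 1))
          (range (ι i))).indicator (fun _ => ρ (Fin.natAdd k i)) x < - a l} := by
    intro j hj
    refine (hcon j hj).mono ?_
    rintro x ⟨g1, l, g2, g3, g4, g5⟩
    exact ⟨g1, l, g2, g3, g4, 1, Or.inl rfl, by rw [one_mul]; exact g5⟩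
  rcases hN with rfl | hN
  · obtain ⟨L', c', σ, t, hc', hcmp, hcorr, hcc, hLL, hfl⟩ :=
      wrap_core' (ι := ι) hM hm0 hbd hres hc hn hflip
    have h' : IsPG χ M m ρ ι sg v p P G f f' A L' c' σ n t :=
      ⟨hχ, hM, hnef, hm, hm0, hρ, hsum, hbd, hdisj, hres, hne, hc', hcmp, hcorr, hfl⟩
    have ha' : ∀ l, a l = ∑ e, ρ e * n e l / c' 0 e := by
      intro l
      simp only [hcc]
      exact ha l
    have hE' : E = univ ∨ IsWZ χ (fun y => p (v y)) (L' 0) (c' 0) ρ E := by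
      rw [show L' 0 = L 0 from funext hLL, show c' 0 = c 0 from funext hcc]
      exact hE
    refine H884.SW.fin_reg hχ hM hnef hm hm0 hρ hsum hbd hdisj hres hne hc hn hflip ha hb hklt
      hd1 hd2 hE (fun j => ?_) fun j => h1 j (Nat.zero_le j)
    by_contra hbad
    exact sing_Q h' ha' hb hklt hd1 hd2 hE' j hbad (hcon j (Nat.zero_le j))
  · exact H884.SW.fin_regE hχ hM hnef hm hm0 hρ hsum hbd hdisj hres hne hc hn hflip ha hb hklt
      hd1 hd2 hE ⟨N, h1⟩ (Or.inr hN)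

end Vale.Agent.P277.WS
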