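import Vale.Agent.P277.Stmts39
import Vale.Agent.P277.H762.S.KltV
import Vale.Agent.P277.H29.CY.Fin3

/-!
# P277, (KLTX)
-/

open scoped Manifold ContDiff Topology
open Vale.Agent.P272.K Vale.Agent.P285.H281.FD Vale.Agent.P267.H175 Set Filter Metric

noncomputable section

namespace Vale.Agent.P277.WS

open Vale.Agent.P277 Vale.Agent.P277.T3 Vale.Agent.P277.H615 Vale.Agent.P277.H29.CY

/-- (KLTX) -/
theorem stKltX : T3.StKltX := by
  intro Y _ _ _ _ _ χ hχ k s M hM hnef m hm hm0 ρ hsum H _ _ _ _ _ _ ι sg hbd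
    hdisj W X Z r v p P G hres hne f f' A L c hc n hn hflip ε hε μ t ht hμ hτ R hR hR0 a ha hb
    hklt hd1 hd2
  -- the flips of `D + t • G`
  have htr : ∀ j, (fun e => Fin.append (fun _ : Fin k => 0) ε e - μ * ρ e) ∈
      RTg (X j) (L j) (c j) := by
    intro j
    induction j with
    | zero => exact IsRTriv.mem hτ
    | succ j ih => exact RTg_trans (hflip j) ih
  have hflip' : ∀ j, IsFlipR (X j) (Z j) (X (j + 1)) (f j) (f' j) (A j) (L j) (L (j + 1)) (c j)
      (c (j + 1)) R := by
    intro j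
    have h6 := Submodule.smul_mem _ t (htr j)
    have h7 := Submodule.smul_mem _ t (htr (j + 1))
    have h9 := isFlipR_twist (hflip j) (RTg_le h6) (RTg_le h7) hμ
    have h10 : R = fun e => (1 + t * μ) * ρ e +
        (t • fun e => Fin.append (fun _ : Fin k => 0) ε e - μ * ρ e) e := by
      funext e
      rw [hR]
      simp only [Pi.smul_apply, smul_eq_mul]
      ring
    rw [h10]
    exact h9
  have hsum' : ∑ e, R e * m e = 1 := by
    rw [← hsum]
    refine Finset.sum_congr rfl fun e _ => ?_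
    rw [hR]
    refine Fin.addCases (fun e => ?_) (fun i => ?_) e
    · simp [Fin.append_left]
    · simp [hm0 i]
  have h0 := stKltV Y χ hχ k s M hM hnef m hm hm0 R hR0 hsum' H ι sg hbd hdisj W X Z r v p P G hres hne f f' A L c hc n hn hflip' a ha hb hklt hd1 hd2
  refine ⟨h0.1, h0.2.1, fun hμ0 j x hx => ?_⟩
  set u : ℝ := -(1 + t * μ) / μ with hu
  have hu0 : 0 < u := div_pos_of_neg_of_neg (by linarith) hμ0
  have hT : IsRTriv (X 0) (L 0) (c 0)
      (fun e => R e + Fin.append (fun _ : Fin k => 0) (fun i => u * ε i) e) := by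
    obtain ⟨b, n', y, h1, h2⟩ := hτ
    refine ⟨b, n', fun i => -y i / μ, h1, fun e => ?_⟩
    have h3 : Fin.append (fun _ : Fin k => (0 : ℝ)) (fun i => u * ε i) e =
        u * Fin.append (fun _ : Fin k => (0 : ℝ)) ε e := by
      refine Fin.addCases (fun e => ?_) (fun i => ?_) e
      · simp [Fin.append_left]
      · simp [Fin.append_right]
    have h4 := h2 e
    have h5 : ∑ i, -y i / μ * (n' i e * c 0 e : ℝ) =
        -(∑ i, y i * (n' i e * c 0 e : ℝ)) / μ := by
      rw [← Finset.sum_neg_distrib, Finset.sum_div]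
      exact Finset.sum_congr rfl fun i _ => by ring
    rw [h5, ← h4]
    show R e + Fin.append (fun _ : Fin k => (0 : ℝ)) (fun i => u * ε i) e =
      -(Fin.append (fun _ : Fin k => 0) ε e - μ * ρ e) / μ
    rw [h3, hR, hu]
    have h6 := hμ0.ne
    field_simp
    ring
  obtain ⟨i, hi, hx'⟩ := h0.2.2 (fun i => u * ε i) (fun i => mul_nonneg hu0.le (hε i)) hT j x hx
  exact ⟨i, (pos_iff_pos_of_mul_pos hi).1 hu0, hx'⟩

end Vale.Agent.P277.WS
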