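import Vale.Agent.P277.HD.StKX
import Vale.Agent.P277.HD.StKV

/-!
# P277, (KLTX) contains (KLTV): check
-/

open scoped Manifold ContDiff Topology
open Vale.Agent.P272.K Vale.Agent.P285.H281.FD Set Metric Filter

noncomputable section

namespace Vale.Agent.P277.HD

/-- the statement with the parameter `t` contains the statement without it (`t = 0`) -/
theorem stKltV_of_stKltX (h : StKltX) : StKltV := by
  intro Y _ _ _ _ _ χ hχ k s M hM hnef m hm hm0 ρ hρ hsum H _ _ _ _ _ _ ι sg hbd
    hdisj W X Z r v p P G hres hne f f' A L c hc n hn hflip a ha hb hklt hd1 hd2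
  have hz : ∀ e, Fin.append (fun _ : Fin k => (0 : ℝ)) (fun _ : Fin s => (0 : ℝ)) e = 0 := by
    intro e
    refine Fin.addCases (fun e => ?_) (fun i => ?_) e
    · simp [Fin.append_left]
    · simp [Fin.append_right]
  have hτ : IsRTriv (X 0) (L 0) (c 0)
      (fun e => Fin.append (fun _ : Fin k => (0 : ℝ)) (fun _ : Fin s => (0 : ℝ)) e - 0 * ρ e) :=
    ⟨0, fun i => i.elim0, fun i => i.elim0, fun i => i.elim0, fun e => by simp [hz]⟩
  have h0 := h Y χ hχ k s M hM hnef m hm hm0 ρ hsum H ι sg hbd hdisj W X Z r v p P G hres hne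
    f f' A L c hc n hn hflip (fun _ => 0) (fun _ => le_rfl) 0 0 le_rfl (by norm_num) hτ
    ρ (fun e => by simp) hρ a ha hb hklt hd1 hd2
  refine ⟨h0.1, h0.2.1, fun ε hε hT => ?_⟩
  have hT' : IsRTriv (X 0) (L 0) (c 0)
      (fun e => Fin.append (fun _ : Fin k => (0 : ℝ)) ε e - (-1) * ρ e) := by
    have h1 : (fun e => Fin.append (fun _ : Fin k => (0 : ℝ)) ε e - (-1) * ρ e) =
        fun e => ρ e + Fin.append (fun _ : Fin k => (0 : ℝ)) ε e := by
      funext e
      ring
    rw [h1]
    exact hT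
  have h1 := h Y χ hχ k s M hM hnef m hm hm0 ρ hsum H ι sg hbd hdisj W X Z r v p P G hres hne
    f f' A L c hc n hn hflip ε hε (-1) 0 le_rfl (by norm_num) hT'
    ρ (fun e => by simp) hρ a ha hb hklt hd1 hd2
  exact h1.2.2 (by norm_num)

end Vale.Agent.P277.HD
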